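import Mathlib

set_option autoImplicit false

/-!
# Row 213, GEOMETRY layer, LEVEL A: Riemannian geometry on a vector space (definitions)

`E` is a finite dimensional real inner product space (the model space) and
`G : E → E →L[ℝ] E` the Gram operator of a Riemannian metric: `g_x(v,w) = ⟪G x v, w⟫`.
We use Lagrangian variables `z = (x,v) : E × E`.

* `IsMetricOn G U` : smooth metric on an open set (what a chart gives, see `R213/Bridge`);
* `GMetric G lo hi` : smooth metric on ALL of `E`, uniformly equivalent to the Euclidean one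
  (a chart metric glued to the Euclidean one by a bump, `exists_gmetric` in `API.lean`);
* `geoField G` : the geodesic spray, `gflow G` its global flow, `expc G x v`, `velc G x v`;
* `IsNormal G W r Ω L` : uniformly normal neighbourhood with logarithm `L`.

All statements about these notions are in `Chart/API.lean`.
-/

namespace Claimed.Agent.R213.Chart

open Set Filter Topology
open scoped ContDiff RealInnerProductSpace

variable {E : Type*} [NormedAddCommGroup E] [InnerProductSpace ℝ E]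

/-- `G` is (the Gram operator of) a smooth Riemannian metric on the open set `U`. -/
structure IsMetricOn (G : E → E →L[ℝ] E) (U : Set E) : Prop where
  isOpen : IsOpen U
  smooth : ContDiffOn ℝ ∞ G U
  symm : ∀ x ∈ U, ∀ v w : E, ⟪G x v, w⟫ = ⟪v, G x w⟫
  pos : ∀ x ∈ U, ∀ v : E, v ≠ 0 → 0 < ⟪G x v, v⟫

/-- `G` is (the Gram operator of) a smooth Riemannian metric on all of `E`, with uniform bounds. -/
structure GMetric (G : E → E →L[ℝ] E) (lo hi : ℝ) : Prop where
  smooth : ContDiff ℝ ∞ G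
  symm : ∀ x v w : E, ⟪G x v, w⟫ = ⟪v, G x w⟫
  lo_pos : 0 < lo
  lower : ∀ x v : E, lo * ‖v‖ ^ 2 ≤ ⟪G x v, v⟫
  upper : ∀ x v : E, ⟪G x v, v⟫ ≤ hi * ‖v‖ ^ 2

/-- the norm of the metric `G` at `x`. -/
noncomputable def gnorm (G : E → E →L[ℝ] E) (x v : E) : ℝ := Real.sqrt ⟪G x v, v⟫

/-- kinetic energy. -/
noncomputable def energy (G : E → E →L[ℝ] E) (z : E × E) : ℝ := (1 / 2 : ℝ) * ⟪G z.1 z.2, z.2⟫

/-- the linear form `e ↦ ⟪w, (DG x e) v⟫`. -/
noncomputable def dForm (G : E → E →L[ℝ] E) (x v w : E) : E →L[ℝ] ℝ :=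
  (innerSL ℝ w).comp ((fderiv ℝ G x).flip v)

@[simp] lemma dForm_apply (G : E → E →L[ℝ] E) (x v w e : E) :
    dForm G x v w e = ⟪w, (fderiv ℝ G x e) v⟫ := rfl

variable [CompleteSpace E]

/-- `grad_x ⟪G x v, v⟫`. -/
noncomputable def gradE (G : E → E →L[ℝ] E) (x v : E) : E :=
  (InnerProductSpace.toDual ℝ E).symm (dForm G x v v)

lemma inner_gradE (G : E → E →L[ℝ] E) (x v e : E) :
    ⟪gradE G x v, e⟫ = ⟪v, (fderiv ℝ G x e) v⟫ := by
  simp [gradE]

/-- right hand side of the Euler-Lagrange equation solved for `G x a`. -/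
noncomputable def force (G : E → E →L[ℝ] E) (x v : E) : E :=
  (1 / 2 : ℝ) • gradE G x v - (fderiv ℝ G x v) v

/-- geodesic acceleration `-Γ_x(v,v)`. -/
noncomputable def acc (G : E → E →L[ℝ] E) (x v : E) : E :=
  (G x).inverse (force G x v)

/-- the geodesic vector field (spray) on `E × E`. -/
noncomputable def geoField (G : E → E →L[ℝ] E) : E × E → E × E :=
  fun z => (z.2, acc G z.1 z.2)

/-- `z = (x,v)` is an integral curve of the geodesic field on the set `s`. -/
def IsGeoOn (G : E → E →L[ℝ] E) (z : ℝ → E × E) (s : Set ℝ) : Prop :=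
  ∀ t ∈ s, HasDerivAt z (geoField G (z t)) t

/-- `Φ` is a global flow of the geodesic field. -/
def IsGFlow (G : E → E →L[ℝ] E) (Φ : ℝ → E × E → E × E) : Prop :=
  (∀ z, Φ 0 z = z) ∧ ∀ z t, HasDerivAt (fun s => Φ s z) (geoField G (Φ t z)) t

open Classical in
/-- the geodesic flow of `G` (it exists and is unique for a `GMetric`). -/
noncomputable def gflow (G : E → E →L[ℝ] E) : ℝ → E × E → E × E :=
  if h : ∃ Φ, IsGFlow G Φ then h.choose else fun _ z => z

/-- exponential map. -/
noncomputable def expc (G : E → E →L[ℝ] E) (x v : E) : E := (gflow G 1 (x, v)).1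

/-- velocity at time one of the geodesic with initial data `(x,v)`. -/
noncomputable def velc (G : E → E →L[ℝ] E) (x v : E) : E := (gflow G 1 (x, v)).2

/-- `(x,v) ↦ (x,-v)`. -/
def flip (z : E × E) : E × E := (z.1, -z.2)

/-- `(x,v) ↦ (x,a v)`. -/
def dil (a : ℝ) (z : E × E) : E × E := (z.1, a • z.2)

/-- Uniformly normal neighbourhood: `(x,v) ↦ (x, expc G x v)` is a bijection from
`{(x,v) | x ∈ W, |v|_x < r}` onto the open set `Ω`, with smooth inverse `p ↦ (p.1, L p)`. -/
structure IsNormal (G : E → E →L[ℝ] E) (W : Set E) (r : ℝ) (Ω : Set (E × E)) (L : E × E → E) :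
    Prop where
  isOpen_W : IsOpen W
  r_pos : 0 < r
  isOpen : IsOpen Ω
  smooth : ContDiffOn ℝ ∞ L Ω
  mem : ∀ x ∈ W, ∀ v : E, gnorm G x v < r → (x, expc G x v) ∈ Ω
  log_exp : ∀ x ∈ W, ∀ v : E, gnorm G x v < r → L (x, expc G x v) = v
  of_mem : ∀ p ∈ Ω, p.1 ∈ W ∧ gnorm G p.1 (L p) < r ∧ expc G p.1 (L p) = p.2

end Claimed.Agent.R213.Chart
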