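import Claimed.Agent.R213.Chart.GFlow

set_option autoImplicit false

/-!
# Row 213, LEVEL A3: the first variation formula for the geodesic flow
`Φ_t^* θ - θ = t dE` for the canonical one-form `θ_(x,v)(q) = ⟪G x v, q.1⟫`.
-/

namespace Claimed.Agent.R213.Chart

open Set Filter Topology
open scoped ContDiff RealInnerProductSpace

variable {E : Type*} [NormedAddCommGroup E] [InnerProductSpace ℝ E] [CompleteSpace E]
  [FiniteDimensional ℝ E] {G : E → E →L[ℝ] E} {lo hi : ℝ}

/-- the first component of the linearised spray. -/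
theorem fderiv_geoField_fst (hG : GMetric G lo hi) (w J : E × E) :
    (fderiv ℝ (geoField G) w J).1 = J.2 := by
  have h1 : HasFDerivAt (geoField G) (fderiv ℝ (geoField G) w) w :=
    ((contDiff_geoField hG).differentiable (by simp) w).hasFDerivAt
  have h2 : HasFDerivAt (fun z : E × E => (geoField G z).1)
      ((ContinuousLinearMap.fst ℝ E E).comp (fderiv ℝ (geoField G) w)) w := h1.fst
  have h3 : HasFDerivAt (fun z : E × E => (geoField G z).1) (ContinuousLinearMap.snd ℝ E E) w :=
    hasFDerivAt_snd
  have h4 := h2.unique h3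
  have h5 := congrArg (fun L : E × E →L[ℝ] E => L J) h4
  simpa using h5

theorem hasFDerivAt_gflow_time (hG : GMetric G lo hi) (t : ℝ) (z : E × E) :
    HasFDerivAt (gflow G t) (fderiv ℝ (gflow G t) z) z :=
  ((contDiff_gflow_time hG t).differentiable (by simp) z).hasFDerivAt

/-- the energy is invariant, infinitesimal version. -/
theorem fderiv_energy_gflow (hG : GMetric G lo hi) (t : ℝ) (z q : E × E) :
    fderiv ℝ (energy G) (gflow G t z) (fderiv ℝ (gflow G t) z q) = fderiv ℝ (energy G) z q := by
  have h1 : HasFDerivAt (energy G) (fderiv ℝ (energy G) (gflow G t z)) (gflow G t z) :=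
    ((contDiff_energy hG).differentiable (by simp) _).hasFDerivAt
  have h2 := h1.comp z (hasFDerivAt_gflow_time hG t z)
  have h3 : (energy G ∘ gflow G t) = energy G := by
    funext w
    exact energy_gflow hG t w
  rw [h3] at h2
  rw [h2.fderiv]
  rfl

/-- **First variation formula**, infinitesimal form. -/
theorem first_variation (hG : GMetric G lo hi) (t : ℝ) (z q : E × E) :
    ⟪G (gflow G t z).1 (gflow G t z).2, (fderiv ℝ (gflow G t) z q).1⟫ - ⟪G z.1 z.2, q.1⟫ =
      t * fderiv ℝ (energy G) z q := by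
  set c : ℝ := fderiv ℝ (energy G) z q with hc
  have hder : ∀ s : ℝ, HasDerivAt
      (fun s => ⟪G (gflow G s z).1 (gflow G s z).2, (fderiv ℝ (gflow G s) z q).1⟫ - s * c) 0 s := by
    intro s
    have hp := hasDerivAt_momentum hG (z := fun s => gflow G s z) (hasDerivAt_gflow hG z s)
    have hJ := (hasDerivAt_fderiv_gflow_apply hG z q s).fst
    have hin := hp.inner ℝ hJ
    have hval : ⟪G (gflow G s z).1 (gflow G s z).2,
          (fderiv ℝ (geoField G) (gflow G s z) (fderiv ℝ (gflow G s) z q)).1⟫
        + ⟪(1 / 2 : ℝ) • gradE G (gflow G s z).1 (gflow G s z).2, (fderiv ℝ (gflow G s) z q).1⟫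
        = c := by
      rw [fderiv_geoField_fst hG, real_inner_smul_left, inner_gradE, hc,
        ← fderiv_energy_gflow hG s z q, fderiv_energy_apply hG]
      ring
    rw [hval] at hin
    have h2 : HasDerivAt (fun s : ℝ => s * c) c s := by
      simpa using (hasDerivAt_id s).mul_const c
    have h3 := hin.sub h2
    rw [sub_self] at h3
    exact h3
  have hconst := is_const_of_deriv_eq_zero (fun s => (hder s).differentiableAt)
    (fun s => (hder s).deriv) t 0
  simp only [zero_mul, sub_zero] at hconst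
  rw [fderiv_gflow_zero hG, gflow_zero hG] at hconst
  simp only [ContinuousLinearMap.coe_id', id_eq] at hconst
  linarith

/-- First variation along a differentiable curve of initial data. -/
theorem first_variation_curve (hG : GMetric G lo hi) (t : ℝ) {ζ : ℝ → E × E} {ζ' : E × E} {s : ℝ}
    (hζ : HasDerivAt ζ ζ' s) :
    ∃ Y' : E × E, HasDerivAt (fun σ => gflow G t (ζ σ)) Y' s ∧
      HasDerivAt (fun σ => t * energy G (ζ σ))
        (⟪G (gflow G t (ζ s)).1 (gflow G t (ζ s)).2, Y'.1⟫ - ⟪G (ζ s).1 (ζ s).2, ζ'.1⟫) s := by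
  refine ⟨fderiv ℝ (gflow G t) (ζ s) ζ', ?_, ?_⟩
  · exact (hasFDerivAt_gflow_time hG t (ζ s)).comp_hasDerivAt s hζ
  · rw [first_variation hG]
    have h1 : HasFDerivAt (energy G) (fderiv ℝ (energy G) (ζ s)) (ζ s) :=
      ((contDiff_energy hG).differentiable (by simp) _).hasFDerivAt
    exact (h1.comp_hasDerivAt s hζ).const_mul t

/-- **Gauss lemma**: `⟪G y V, D_v exp_x(v) k⟫ = ⟪G x v, k⟫` with `y = exp_x v`, `V = velc x v`. -/
theorem gauss_lemma (hG : GMetric G lo hi) (x v k : E) :
    ⟪G (expc G x v) (velc G x v), fderiv ℝ (fun w => expc G x w) v k⟫ = ⟪G x v, k⟫ := by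
  have h1 := first_variation hG 1 (x, v) (0, k)
  rw [fderiv_energy_apply hG] at h1
  simp only [map_zero, zero_apply, inner_zero_right, mul_zero, zero_add,
    sub_zero, one_mul] at h1
  have h2 : HasFDerivAt (fun w : E => (x, w)) (ContinuousLinearMap.inr ℝ E E) v :=
    hasFDerivAt_prodMk_right x v
  have h3 : HasFDerivAt (fun w : E => expc G x w)
      ((ContinuousLinearMap.fst ℝ E E).comp
        ((fderiv ℝ (gflow G 1) (x, v)).comp (ContinuousLinearMap.inr ℝ E E))) v :=
    ((hasFDerivAt_gflow_time hG 1 (x, v)).comp v h2).fst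
  rw [h3.fderiv]
  simpa [expc, velc] using h1

end Claimed.Agent.R213.Chart
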