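import Claimed.Agent.R213.Chart.Spray
import Claimed.Agent.R213.Flow.Complete

set_option autoImplicit false

/-!
# Row 213, LEVEL A2: the global geodesic flow of a `GMetric`
Existence (cut-off of the spray + a priori bounds from conservation of energy), smoothness,
uniqueness, group law, homogeneity, reversibility, variational equation.
-/

namespace Claimed.Agent.R213.Chart

open Set Filter Topology
open scoped ContDiff RealInnerProductSpace

variable {E : Type*} [NormedAddCommGroup E] [InnerProductSpace ℝ E] [CompleteSpace E]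
  [FiniteDimensional ℝ E] {G : E → E →L[ℝ] E} {lo hi : ℝ}

/-! ### completeness of the spray -/

omit [CompleteSpace E] [FiniteDimensional ℝ E] in
theorem hasDerivAt_fst_of {α : ℝ → E × E} {a : E × E} {t : ℝ} (h : HasDerivAt α a t) :
    HasDerivAt (fun s => (α s).1) a.1 t :=
  (ContinuousLinearMap.fst ℝ E E).hasFDerivAt.comp_hasDerivAt t h

omit [CompleteSpace E] [FiniteDimensional ℝ E] in
theorem hasDerivAt_snd_of {α : ℝ → E × E} {a : E × E} {t : ℝ} (h : HasDerivAt α a t) :
    HasDerivAt (fun s => (α s).2) a.2 t :=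
  (ContinuousLinearMap.snd ℝ E E).hasFDerivAt.comp_hasDerivAt t h

/-- the energy is constant along integral curves of a damped spray. -/
theorem energy_damped (hG : GMetric G lo hi) {b : E × E → ℝ} {α : ℝ → E × E} {T : ℝ}
    (hα : ∀ t ∈ Ioo (-T) T, HasDerivAt α (b (α t) • geoField G (α t)) t) {s t : ℝ}
    (hs : s ∈ Ioo (-T) T) (ht : t ∈ Ioo (-T) T) :
    energy G (α s) = energy G (α t) := by
  have hd : ∀ r ∈ Ioo (-T) T, HasDerivAt (fun r => energy G (α r)) 0 r := by
    intro r hr
    have h1 := ((contDiff_energy hG).differentiable (by simp) (α r)).hasFDerivAt.comp_hasDerivAt r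
      (hα r hr)
    rw [map_smul, fderiv_energy_geoField hG, smul_zero] at h1
    exact h1
  exact isOpen_Ioo.is_const_of_deriv_eq_zero isPreconnected_Ioo
    (fun r hr => (hd r hr).differentiableAt.differentiableWithinAt)
    (fun r hr => (hd r hr).deriv) hs ht

theorem gnorm_eq_of_energy_eq (hG : GMetric G lo hi) {z w : E × E}
    (h : energy G z = energy G w) : gnorm G z.1 z.2 = gnorm G w.1 w.2 := by
  rw [energy_eq hG, energy_eq hG] at h
  have h2 : gnorm G z.1 z.2 ^ 2 = gnorm G w.1 w.2 ^ 2 := by linarith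
  exact (sq_eq_sq₀ (gnorm_nonneg _ _) (gnorm_nonneg _ _)).mp h2

theorem norm_le_gnorm_div (hG : GMetric G lo hi) (x v : E) :
    ‖v‖ ≤ gnorm G x v / Real.sqrt lo := by
  rw [le_div_iff₀ (Real.sqrt_pos.mpr hG.lo_pos), mul_comm]
  exact sqrt_lo_mul_norm_le hG x v

/-- the geodesic spray of a `GMetric` is complete. -/
theorem complete_geoField (hG : GMetric G lo hi) : Flow.Complete (geoField G) := by
  refine Flow.complete_of_apriori (contDiff_geoField hG) fun z₀ T hT => ?_
  obtain ⟨k, hk⟩ : ∃ k, k = gnorm G z₀.1 z₀.2 / Real.sqrt lo := ⟨_, rfl⟩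
  have hk0 : 0 ≤ k := by rw [hk]; exact div_nonneg (gnorm_nonneg _ _) (Real.sqrt_nonneg _)
  have : ProperSpace E := FiniteDimensional.proper_real E
  refine ⟨Metric.closedBall z₀.1 (k * T) ×ˢ Metric.closedBall 0 k,
    (isCompact_closedBall _ _).prod (isCompact_closedBall _ _), ?_⟩
  intro b α hb hα0 hα t ht
  have h0 : (0 : ℝ) ∈ Ioo (-T) T := ⟨by linarith, hT⟩
  have hv : ∀ s ∈ Ioo (-T) T, ‖(α s).2‖ ≤ k := by
    intro s hs
    have h1 := gnorm_eq_of_energy_eq hG (energy_damped hG hα hs h0)
    rw [hα0] at h1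
    rw [hk, ← h1]
    exact norm_le_gnorm_div hG _ _
  refine ⟨?_, ?_⟩
  · have hd : ∀ s ∈ Ioo (-T) T, HasDerivWithinAt (fun s => (α s).1) (b (α s) • (α s).2)
        (Ioo (-T) T) s := fun s hs => (hasDerivAt_fst_of (hα s hs)).hasDerivWithinAt
    have hbd : ∀ s ∈ Ioo (-T) T, ‖b (α s) • (α s).2‖ ≤ k := by
      intro s hs
      rw [norm_smul, Real.norm_eq_abs, abs_of_nonneg (hb _).1]
      calc b (α s) * ‖(α s).2‖ ≤ 1 * k :=
            mul_le_mul (hb _).2 (hv s hs) (norm_nonneg _) zero_le_one
        _ = k := one_mul k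
    have h1 := (convex_Ioo (-T) T).norm_image_sub_le_of_norm_hasDerivWithin_le hd hbd h0 ht
    rw [hα0, sub_zero, Real.norm_eq_abs] at h1
    show (α t).1 ∈ Metric.closedBall z₀.1 (k * T)
    rw [Metric.mem_closedBall, dist_eq_norm]
    refine h1.trans (mul_le_mul_of_nonneg_left ?_ hk0)
    exact (abs_lt.mpr ⟨ht.1, ht.2⟩).le
  · show (α t).2 ∈ Metric.closedBall 0 k
    rw [mem_closedBall_zero_iff]
    exact hv t ht

theorem isGFlow_gflow (hG : GMetric G lo hi) : IsGFlow G (gflow G) := by
  have hc := complete_geoField hG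
  have h : ∃ Φ, IsGFlow G Φ :=
    ⟨Flow.flow (geoField G), hc.flow_zero, fun z t => hc.hasDerivAt_flow z t⟩
  unfold gflow
  rw [dif_pos h]
  exact h.choose_spec

theorem gflow_zero (hG : GMetric G lo hi) (z : E × E) : gflow G 0 z = z :=
  (isGFlow_gflow hG).1 z

theorem hasDerivAt_gflow (hG : GMetric G lo hi) (z : E × E) (t : ℝ) :
    HasDerivAt (fun s => gflow G s z) (geoField G (gflow G t z)) t :=
  (isGFlow_gflow hG).2 z t

theorem hasDerivAt_gflow_fst (hG : GMetric G lo hi) (z : E × E) (t : ℝ) :
    HasDerivAt (fun s => (gflow G s z).1) (gflow G t z).2 t :=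
  (hasDerivAt_gflow hG z t).fst

theorem hasDerivAt_gflow_snd (hG : GMetric G lo hi) (z : E × E) (t : ℝ) :
    HasDerivAt (fun s => (gflow G s z).2) (acc G (gflow G t z).1 (gflow G t z).2) t :=
  (hasDerivAt_gflow hG z t).snd

/-- the geodesic flow is the flow (in the sense of `Flow.flow`) of the spray. -/
theorem gflow_eq_flow (hG : GMetric G lo hi) : gflow G = Flow.flow (geoField G) := by
  funext t z
  have h := (complete_geoField hG).eq_flow (contDiff_geoField hG) (α := fun s => gflow G s z)
    (fun s => hasDerivAt_gflow hG z s) t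
  simpa [gflow_zero hG] using h

/-- a global integral curve is a flow line. -/
theorem eq_gflow_of_hasDerivAt (hG : GMetric G lo hi) {α : ℝ → E × E}
    (hα : ∀ t, HasDerivAt α (geoField G (α t)) t) (t : ℝ) : α t = gflow G t (α 0) := by
  rw [gflow_eq_flow hG]
  exact (complete_geoField hG).eq_flow (contDiff_geoField hG) hα t

/-- uniqueness: an integral curve on an open interval around `t₀` is a flow line. -/
theorem IsGeoOn.eqOn_gflow (hG : GMetric G lo hi) {z : ℝ → E × E} {a b t₀ : ℝ}
    (hz : IsGeoOn G z (Ioo a b)) (h0 : t₀ ∈ Ioo a b) :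
    EqOn z (fun t => gflow G (t - t₀) (z t₀)) (Ioo a b) := by
  rw [gflow_eq_flow hG]
  exact (complete_geoField hG).eqOn_flow_sub (contDiff_geoField hG) h0 hz

/-- **joint smoothness of the geodesic flow.** -/
theorem contDiff_gflow (hG : GMetric G lo hi) :
    ContDiff ℝ ∞ (fun p : ℝ × (E × E) => gflow G p.1 p.2) := by
  rw [gflow_eq_flow hG]
  exact (complete_geoField hG).contDiff_flow (contDiff_geoField hG)

theorem contDiff_gflow_time (hG : GMetric G lo hi) (t : ℝ) : ContDiff ℝ ∞ (gflow G t) := by
  rw [gflow_eq_flow hG]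
  exact (complete_geoField hG).contDiff_flow_time (contDiff_geoField hG) t

theorem gflow_add (hG : GMetric G lo hi) (s t : ℝ) (z : E × E) :
    gflow G (s + t) z = gflow G s (gflow G t z) := by
  rw [gflow_eq_flow hG]
  exact (complete_geoField hG).flow_add (contDiff_geoField hG) s t z

theorem gflow_neg_gflow (hG : GMetric G lo hi) (t : ℝ) (z : E × E) :
    gflow G (-t) (gflow G t z) = z := by
  rw [← gflow_add hG, neg_add_cancel, gflow_zero hG]

theorem energy_gflow (hG : GMetric G lo hi) (t : ℝ) (z : E × E) :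
    energy G (gflow G t z) = energy G z := by
  have h := energy_damped hG (b := fun _ => 1) (α := fun s => gflow G s z) (T := |t| + 1)
    (fun s _ => by simpa using hasDerivAt_gflow hG z s) (s := t) (t := 0)
    ⟨by linarith [neg_abs_le t], by linarith [le_abs_self t]⟩
    ⟨by linarith [abs_nonneg t], by linarith [abs_nonneg t]⟩
  simpa [gflow_zero hG] using h

theorem gnorm_gflow (hG : GMetric G lo hi) (t : ℝ) (z : E × E) :
    gnorm G (gflow G t z).1 (gflow G t z).2 = gnorm G z.1 z.2 :=
  gnorm_eq_of_energy_eq hG (energy_gflow hG t z)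

/-- homogeneity of the geodesic flow. -/
theorem gflow_dil (hG : GMetric G lo hi) (a t : ℝ) (z : E × E) :
    gflow G t (dil a z) = dil a (gflow G (a * t) z) := by
  have hα : ∀ s, HasDerivAt (fun s => dil a (gflow G (a * s) z))
      (geoField G (dil a (gflow G (a * s) z))) s := by
    intro s
    have h1 : HasDerivAt (fun s => gflow G (a * s) z) (a • geoField G (gflow G (a * s) z)) s := by
      have := (hasDerivAt_gflow hG z (a * s)).scomp s ((hasDerivAt_id s).const_mul a)
      simpa [Function.comp_def] using this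
    have h2 : HasDerivAt (fun s => dil a (gflow G (a * s) z))
        ((a • geoField G (gflow G (a * s) z)).1, a • (a • geoField G (gflow G (a * s) z)).2) s :=
      (hasDerivAt_fst_of h1).prodMk ((hasDerivAt_snd_of h1).const_smul a)
    convert h2 using 1
    simp only [geoField, dil, acc_smul, Prod.smul_fst, Prod.smul_snd, smul_smul, sq]
  have h := eq_gflow_of_hasDerivAt hG hα t
  simp only [mul_zero, gflow_zero hG] at h
  exact h.symm

omit [CompleteSpace E] [FiniteDimensional ℝ E] in
theorem flip_eq_dil (z : E × E) : flip z = dil (-1) z := by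
  simp [flip, dil]

/-- reversibility of the geodesic flow. -/
theorem gflow_flip (hG : GMetric G lo hi) (t : ℝ) (z : E × E) :
    gflow G t (flip z) = flip (gflow G (-t) z) := by
  rw [flip_eq_dil, flip_eq_dil, gflow_dil hG, neg_one_mul]

theorem flip_gflow_flip_gflow (hG : GMetric G lo hi) (t : ℝ) (z : E × E) :
    flip (gflow G t (flip (gflow G t z))) = z := by
  rw [gflow_flip hG, gflow_neg_gflow hG]
  simp [flip]

theorem gflow_zero_vel (hG : GMetric G lo hi) (t : ℝ) (x : E) : gflow G t (x, 0) = (x, 0) := by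
  have h := gflow_dil hG 0 t (x, 0)
  simpa [dil, gflow_zero hG] using h

/-- a priori bound on the displacement. -/
theorem norm_gflow_fst_sub_le (hG : GMetric G lo hi) (t : ℝ) (z : E × E) :
    ‖(gflow G t z).1 - z.1‖ ≤ |t| * gnorm G z.1 z.2 / Real.sqrt lo := by
  have hd : ∀ s ∈ (univ : Set ℝ), HasDerivWithinAt (fun s => (gflow G s z).1) (gflow G s z).2
      univ s := fun s _ => (hasDerivAt_gflow_fst hG z s).hasDerivWithinAt
  have hbd : ∀ s ∈ (univ : Set ℝ), ‖(gflow G s z).2‖ ≤ gnorm G z.1 z.2 / Real.sqrt lo := by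
    intro s _
    rw [← gnorm_gflow hG s z]
    exact norm_le_gnorm_div hG _ _
  have h1 := convex_univ.norm_image_sub_le_of_norm_hasDerivWithin_le hd hbd (mem_univ 0)
    (mem_univ t)
  rw [gflow_zero hG, sub_zero, Real.norm_eq_abs] at h1
  calc ‖(gflow G t z).1 - z.1‖ ≤ gnorm G z.1 z.2 / Real.sqrt lo * |t| := h1
    _ = |t| * gnorm G z.1 z.2 / Real.sqrt lo := by ring

/-- variational equation. -/
theorem hasDerivAt_fderiv_gflow_apply (hG : GMetric G lo hi) (z q : E × E) (t : ℝ) :
    HasDerivAt (fun s => fderiv ℝ (gflow G s) z q)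
      (fderiv ℝ (geoField G) (gflow G t z) (fderiv ℝ (gflow G t) z q)) t := by
  rw [gflow_eq_flow hG]
  exact (complete_geoField hG).hasDerivAt_fderiv_flow_apply (contDiff_geoField hG) z q t

theorem fderiv_gflow_zero (hG : GMetric G lo hi) (z : E × E) :
    fderiv ℝ (gflow G 0) z = ContinuousLinearMap.id ℝ (E × E) := by
  rw [gflow_eq_flow hG]
  exact (complete_geoField hG).fderiv_flow_zero z

/-! ### the exponential map -/

theorem expc_zero (hG : GMetric G lo hi) (x : E) : expc G x 0 = x := by
  unfold expc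
  rw [gflow_zero_vel hG]

theorem expc_smul (hG : GMetric G lo hi) (t : ℝ) (x v : E) :
    expc G x (t • v) = (gflow G t (x, v)).1 := by
  have h := gflow_dil hG t 1 (x, v)
  unfold expc
  simp only [dil, mul_one] at h
  rw [h]

theorem velc_smul (hG : GMetric G lo hi) (t : ℝ) (x v : E) :
    velc G x (t • v) = t • (gflow G t (x, v)).2 := by
  have h := gflow_dil hG t 1 (x, v)
  unfold velc
  simp only [dil, mul_one] at h
  rw [h]

theorem contDiff_expc (hG : GMetric G lo hi) : ContDiff ℝ ∞ (fun z : E × E => expc G z.1 z.2) :=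
  (contDiff_gflow_time hG 1).fst

theorem contDiff_velc (hG : GMetric G lo hi) : ContDiff ℝ ∞ (fun z : E × E => velc G z.1 z.2) :=
  (contDiff_gflow_time hG 1).snd

theorem gnorm_velc (hG : GMetric G lo hi) (x v : E) :
    gnorm G (expc G x v) (velc G x v) = gnorm G x v :=
  gnorm_gflow hG 1 (x, v)

/-- going back. -/
theorem expc_neg_velc (hG : GMetric G lo hi) (x v : E) :
    expc G (expc G x v) (-velc G x v) = x := by
  have h := gflow_flip hG 1 (gflow G 1 (x, v))
  rw [gflow_neg_gflow hG] at h
  exact congrArg Prod.fst h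

theorem velc_neg_velc (hG : GMetric G lo hi) (x v : E) :
    velc G (expc G x v) (-velc G x v) = -v := by
  have h := gflow_flip hG 1 (gflow G 1 (x, v))
  rw [gflow_neg_gflow hG] at h
  exact congrArg Prod.snd h

/-- the derivative of `(x,v) ↦ expc G x v` at `(x,0)` is `(h,k) ↦ h + k`. -/
theorem hasFDerivAt_expc_zero (hG : GMetric G lo hi) (x : E) :
    HasFDerivAt (fun z : E × E => expc G z.1 z.2)
      (ContinuousLinearMap.fst ℝ E E + ContinuousLinearMap.snd ℝ E E) (x, 0) := by
  have hd : DifferentiableAt ℝ (fun z : E × E => expc G z.1 z.2) (x, 0) :=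
    (contDiff_expc hG).differentiable (by simp) (x, 0)
  have h := hd.hasFDerivAt
  have e : fderiv ℝ (fun z : E × E => expc G z.1 z.2) (x, 0) =
      ContinuousLinearMap.fst ℝ E E + ContinuousLinearMap.snd ℝ E E := by
    apply ContinuousLinearMap.ext
    rintro ⟨p, q⟩
    have h1 : HasDerivAt (fun s : ℝ => x + s • p)
        (fderiv ℝ (fun z : E × E => expc G z.1 z.2) (x, 0) (p, 0)) 0 := by
      have hc : HasDerivAt (fun s : ℝ => ((x + s • p, (0 : E)) : E × E)) (p, 0) 0 := by
        have h3 : HasDerivAt (fun s : ℝ => x + s • p) p 0 := by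
          simpa using ((hasDerivAt_id (0 : ℝ)).smul_const p).const_add x
        exact h3.prodMk (hasDerivAt_const 0 0)
      have h4 : HasFDerivAt (fun z : E × E => expc G z.1 z.2)
          (fderiv ℝ (fun z : E × E => expc G z.1 z.2) (x, 0))
          ((fun s : ℝ => ((x + s • p, (0 : E)) : E × E)) 0) := by simpa using h
      have := h4.comp_hasDerivAt (0 : ℝ) hc
      simpa [Function.comp_def, expc_zero hG] using this
    have h1' : HasDerivAt (fun s : ℝ => x + s • p) p 0 := by
      simpa using ((hasDerivAt_id (0 : ℝ)).smul_const p).const_add x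
    have h2 : HasDerivAt (fun s : ℝ => (gflow G s (x, q)).1)
        (fderiv ℝ (fun z : E × E => expc G z.1 z.2) (x, 0) (0, q)) 0 := by
      have hc : HasDerivAt (fun s : ℝ => ((x, s • q) : E × E)) (0, q) 0 := by
        have h3 : HasDerivAt (fun s : ℝ => s • q) q 0 := by
          simpa using (hasDerivAt_id (0 : ℝ)).smul_const q
        exact (hasDerivAt_const 0 x).prodMk h3
      have h4 : HasFDerivAt (fun z : E × E => expc G z.1 z.2)
          (fderiv ℝ (fun z : E × E => expc G z.1 z.2) (x, 0))
          ((fun s : ℝ => ((x, s • q) : E × E)) 0) := by simpa using h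
      have := h4.comp_hasDerivAt (0 : ℝ) hc
      simpa [Function.comp_def, expc_smul hG] using this
    have h2' := hasDerivAt_gflow_fst hG (x, q) 0
    rw [gflow_zero hG] at h2'
    have e1 : ((p, q) : E × E) = (p, 0) + (0, q) := by simp
    rw [e1, map_add, h1.unique h1', h2.unique h2']
    simp
  rwa [e] at h

end Claimed.Agent.R213.Chart
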