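import Claimed.Agent.R213.Chart.Defs

set_option autoImplicit false

/-!
# Row 213, LEVEL A0: a metric on an open set agrees near a point with a global `GMetric`
-/

namespace Claimed.Agent.R213.Chart

open Set Filter Topology
open scoped ContDiff RealInnerProductSpace

variable {E : Type*} [NormedAddCommGroup E] [InnerProductSpace ℝ E] [FiniteDimensional ℝ E]

/-- glue a chart metric to the Euclidean one by a bump function. -/
theorem exists_gmetric {G₀ : E → E →L[ℝ] E} {U : Set E} (h : IsMetricOn G₀ U) {x₀ : E}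
    (hx : x₀ ∈ U) :
    ∃ (G : E → E →L[ℝ] E) (lo hi ρ : ℝ), GMetric G lo hi ∧ 0 < ρ ∧
      Metric.closedBall x₀ ρ ⊆ U ∧ ∀ x ∈ Metric.closedBall x₀ ρ, G x = G₀ x := by
  obtain ⟨R, hR, hRU⟩ := Metric.nhds_basis_closedBall.mem_iff.1 (h.isOpen.mem_nhds hx)
  let χ : ContDiffBump x₀ := ⟨R / 2, R, by positivity, by linarith⟩
  set G : E → E →L[ℝ] E := fun x => χ x • G₀ x + (1 - χ x) • ContinuousLinearMap.id ℝ E with hG
  have hχ0 : ∀ x, x ∉ Metric.closedBall x₀ R → χ x = 0 := by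
    intro x hx
    apply χ.zero_of_le_dist
    simp only [Metric.mem_closedBall, not_le] at hx
    exact hx.le
  have hχ1 : ∀ x ∈ Metric.closedBall x₀ (R / 2), χ x = 1 := by
    intro x hx
    exact χ.one_of_mem_closedBall hx
  set K : Set (E × E) := Metric.closedBall x₀ R ×ˢ Metric.sphere (0 : E) 1 with hK
  have hKc : IsCompact K := (isCompact_closedBall x₀ R).prod (isCompact_sphere 0 1)
  have hf : ContinuousOn (fun p : E × E => ⟪G₀ p.1 p.2, p.2⟫) K := by
    have h1 : ContinuousOn (fun p : E × E => G₀ p.1) K :=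
      (h.smooth.continuousOn.mono hRU).comp continuousOn_fst (fun p hp => hp.1)
    have h2 : ContinuousOn (fun p : E × E => G₀ p.1 p.2) K := h1.clm_apply continuousOn_snd
    exact h2.inner continuousOn_snd
  -- lower bound on the compact set
  obtain ⟨m, hm, hmK⟩ : ∃ m : ℝ, 0 < m ∧ ∀ p ∈ K, m ≤ ⟪G₀ p.1 p.2, p.2⟫ := by
    rcases K.eq_empty_or_nonempty with hKe | hKne
    · exact ⟨1, one_pos, fun p hp => by simp [hKe] at hp⟩
    · obtain ⟨p, hp, hpmin⟩ := hKc.exists_isMinOn hKne hf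
      refine ⟨_, h.pos p.1 (hRU hp.1) p.2 ?_, fun q hq => hpmin hq⟩
      intro h0
      have := hp.2
      simp [h0] at this
  obtain ⟨M, hMK⟩ : ∃ M : ℝ, ∀ p ∈ K, ⟪G₀ p.1 p.2, p.2⟫ ≤ M := by
    obtain ⟨M, hM⟩ := hKc.bddAbove_image hf
    exact ⟨M, fun p hp => hM (mem_image_of_mem _ hp)⟩
  -- homogeneity
  have hlow : ∀ x ∈ Metric.closedBall x₀ R, ∀ v : E, m * ‖v‖ ^ 2 ≤ ⟪G₀ x v, v⟫ := by
    intro x hx v
    rcases eq_or_ne v 0 with rfl | hv
    · simp
    · have hn : ‖v‖ ≠ 0 := norm_ne_zero_iff.2 hv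
      have hu : (x, ‖v‖⁻¹ • v) ∈ K := by
        refine ⟨hx, ?_⟩
        simp [norm_smul, hn]
      have := hmK _ hu
      simp only [map_smul, inner_smul_left, inner_smul_right, RCLike.conj_to_real] at this
      have h2 : 0 < ‖v‖ ^ 2 := by positivity
      calc m * ‖v‖ ^ 2 ≤ (‖v‖⁻¹ * (‖v‖⁻¹ * ⟪G₀ x v, v⟫)) * ‖v‖ ^ 2 :=
            mul_le_mul_of_nonneg_right this h2.le
        _ = ⟪G₀ x v, v⟫ := by field_simp
  have hupp : ∀ x ∈ Metric.closedBall x₀ R, ∀ v : E, ⟪G₀ x v, v⟫ ≤ M * ‖v‖ ^ 2 := by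
    intro x hx v
    rcases eq_or_ne v 0 with rfl | hv
    · simp
    · have hn : ‖v‖ ≠ 0 := norm_ne_zero_iff.2 hv
      have hu : (x, ‖v‖⁻¹ • v) ∈ K := by
        refine ⟨hx, ?_⟩
        simp [norm_smul, hn]
      have := hMK _ hu
      simp only [map_smul, inner_smul_left, inner_smul_right, RCLike.conj_to_real] at this
      have h2 : 0 < ‖v‖ ^ 2 := by positivity
      calc ⟪G₀ x v, v⟫ = (‖v‖⁻¹ * (‖v‖⁻¹ * ⟪G₀ x v, v⟫)) * ‖v‖ ^ 2 := by field_simp
        _ ≤ M * ‖v‖ ^ 2 := mul_le_mul_of_nonneg_right this h2.le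
  have hGin : ∀ x v : E, ⟪G x v, v⟫ = χ x * ⟪G₀ x v, v⟫ + (1 - χ x) * ‖v‖ ^ 2 := by
    intro x v
    simp only [hG, add_apply, smul_apply,
      ContinuousLinearMap.id_apply, inner_add_left, inner_smul_left, RCLike.conj_to_real,
      real_inner_self_eq_norm_sq]
  refine ⟨G, min m 1, max M 1, R / 2, ⟨?_, ?_, lt_min hm one_pos, ?_, ?_⟩, by positivity,
    (Metric.closedBall_subset_closedBall (by linarith)).trans hRU, ?_⟩
  · -- smoothness
    rw [contDiff_iff_contDiffAt]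
    intro x
    by_cases hxU : x ∈ U
    · have h1 : ContDiffAt ℝ ∞ G₀ x := h.smooth.contDiffAt (h.isOpen.mem_nhds hxU)
      have h2 : ContDiffAt ℝ ∞ (fun y => χ y) x := χ.contDiff.contDiffAt
      exact (h2.smul h1).add ((contDiffAt_const.sub h2).smul contDiffAt_const)
    · have hx' : x ∈ (Metric.closedBall x₀ R)ᶜ := fun hc => hxU (hRU hc)
      have hev : G =ᶠ[𝓝 x] fun _ => ContinuousLinearMap.id ℝ E := by
        filter_upwards [Metric.isClosed_closedBall.isOpen_compl.mem_nhds hx'] with y hy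
        simp [hG, hχ0 y hy]
      exact contDiffAt_const.congr_of_eventuallyEq hev
  · -- symmetry
    intro x v w
    by_cases hxR : x ∈ Metric.closedBall x₀ R
    · simp only [hG, add_apply, smul_apply,
        ContinuousLinearMap.id_apply, inner_add_left, inner_add_right, inner_smul_left,
        inner_smul_right, RCLike.conj_to_real, h.symm x (hRU hxR) v w]
    · simp [hG, hχ0 x hxR]
  · -- lower bound
    intro x v
    rw [hGin]
    have c0 : 0 ≤ χ x := χ.nonneg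
    have c1 : χ x ≤ 1 := χ.le_one
    have hv2 : 0 ≤ ‖v‖ ^ 2 := by positivity
    have e1 : min m 1 * ‖v‖ ^ 2 ≤ ‖v‖ ^ 2 := by
      have := mul_le_mul_of_nonneg_right (min_le_right m 1) hv2
      simpa using this
    by_cases hxR : x ∈ Metric.closedBall x₀ R
    · have e2 : min m 1 * ‖v‖ ^ 2 ≤ ⟪G₀ x v, v⟫ :=
        (mul_le_mul_of_nonneg_right (min_le_left m 1) hv2).trans (hlow x hxR v)
      nlinarith [mul_le_mul_of_nonneg_left e2 c0, mul_le_mul_of_nonneg_left e1 (sub_nonneg.2 c1)]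
    · rw [hχ0 x hxR]; simpa using e1
  · -- upper bound
    intro x v
    rw [hGin]
    have c0 : 0 ≤ χ x := χ.nonneg
    have c1 : χ x ≤ 1 := χ.le_one
    have hv2 : 0 ≤ ‖v‖ ^ 2 := by positivity
    have e1 : ‖v‖ ^ 2 ≤ max M 1 * ‖v‖ ^ 2 := by
      have := mul_le_mul_of_nonneg_right (le_max_right M 1) hv2
      simpa using this
    by_cases hxR : x ∈ Metric.closedBall x₀ R
    · have e2 : ⟪G₀ x v, v⟫ ≤ max M 1 * ‖v‖ ^ 2 :=
        (hupp x hxR v).trans (mul_le_mul_of_nonneg_right (le_max_left M 1) hv2)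
      nlinarith [mul_le_mul_of_nonneg_left e2 c0, mul_le_mul_of_nonneg_left e1 (sub_nonneg.2 c1)]
    · rw [hχ0 x hxR]; simpa using e1
  · intro x hx
    simp [hG, hχ1 x hx]

end Claimed.Agent.R213.Chart
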