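import Claimed.Agent.R213.Chart.FirstVar

set_option autoImplicit false

/-!
# Row 213, LEVEL A4: uniformly normal neighbourhoods, the local cost and its differential
-/

namespace Claimed.Agent.R213.Chart

open Set Filter Topology
open scoped ContDiff RealInnerProductSpace

variable {E : Type*} [NormedAddCommGroup E] [InnerProductSpace ℝ E] [CompleteSpace E]
  [FiniteDimensional ℝ E] {G : E → E →L[ℝ] E} {lo hi : ℝ}

/-- the map `(x,v) ↦ (x, exp_x v)`. -/
private noncomputable def psiMap (G : E → E →L[ℝ] E) (z : E × E) : E × E :=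
  (z.1, expc G z.1 z.2)

private lemma contDiff_psiMap (hG : GMetric G lo hi) : ContDiff ℝ ∞ (psiMap G) :=
  contDiff_fst.prodMk (contDiff_expc hG)

/-- the shear `(h,k) ↦ (h,h+k)` as a continuous linear equivalence. -/
private noncomputable def shearEquiv (E : Type*) [NormedAddCommGroup E] [InnerProductSpace ℝ E] :
    (E × E) ≃L[ℝ] (E × E) :=
  ContinuousLinearEquiv.equivOfInverse
    ((ContinuousLinearMap.fst ℝ E E).prod
      (ContinuousLinearMap.fst ℝ E E + ContinuousLinearMap.snd ℝ E E))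
    ((ContinuousLinearMap.fst ℝ E E).prod
      (ContinuousLinearMap.snd ℝ E E - ContinuousLinearMap.fst ℝ E E))
    (fun z => by ext <;> simp)
    (fun z => by ext <;> simp)

private lemma hasFDerivAt_psiMap_zero (hG : GMetric G lo hi) (x : E) :
    HasFDerivAt (psiMap G) (shearEquiv E : (E × E) →L[ℝ] (E × E)) (x, 0) :=
  (hasFDerivAt_fst).prodMk (hasFDerivAt_expc_zero hG x)

/-- **Existence of uniformly normal neighbourhoods** (inverse function theorem for
`(x,v) ↦ (x, expc G x v)` at `(x₀,0)`). -/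
theorem exists_isNormal (hG : GMetric G lo hi) (x₀ : E) :
    ∃ (W : Set E) (r : ℝ) (Ω : Set (E × E)) (L : E × E → E), IsNormal G W r Ω L ∧ x₀ ∈ W := by
  have hΨ := contDiff_psiMap hG
  have hn : (∞ : WithTop ℕ∞) ≠ 0 := by simp
  -- the local homeomorphism given by the inverse function theorem
  set e : OpenPartialHomeomorph (E × E) (E × E) :=
    (hΨ.contDiffAt (x := (x₀, 0))).toOpenPartialHomeomorph (psiMap G)
      (hasFDerivAt_psiMap_zero hG x₀) hn with he
  have he_coe : ∀ z, e z = psiMap G z := fun z => rfl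
  have h0src : (x₀, (0 : E)) ∈ e.source :=
    (hΨ.contDiffAt (x := (x₀, 0))).mem_toOpenPartialHomeomorph_source
      (hasFDerivAt_psiMap_zero hG x₀) hn
  -- the open set where the differential is invertible
  set Inv : Set (E × E) :=
    (fderiv ℝ (psiMap G)) ⁻¹' (range ((↑) : ((E × E) ≃L[ℝ] (E × E)) → (E × E) →L[ℝ] (E × E)))
    with hInv
  have hInv_open : IsOpen Inv :=
    (ContinuousLinearEquiv.isOpen).preimage (hΨ.continuous_fderiv (by simp))
  have h0Inv : (x₀, (0 : E)) ∈ Inv := by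
    refine ⟨shearEquiv E, ?_⟩
    exact (hasFDerivAt_psiMap_zero hG x₀).fderiv.symm
  have hA : e.source ∩ Inv ∈ 𝓝 (x₀, (0 : E)) :=
    (e.open_source.inter hInv_open).mem_nhds ⟨h0src, h0Inv⟩
  rw [nhds_prod_eq, Filter.mem_prod_iff] at hA
  obtain ⟨U, hU, V, hV, hUV⟩ := hA
  obtain ⟨δ, hδ, hδU⟩ := Metric.mem_nhds_iff.1 hU
  obtain ⟨ρ, hρ, hρV⟩ := Metric.mem_nhds_iff.1 hV
  have hlo : 0 < Real.sqrt lo := Real.sqrt_pos.2 hG.lo_pos
  set W : Set E := Metric.ball x₀ δ with hW
  set r : ℝ := ρ * Real.sqrt lo with hr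
  set D : Set (E × E) := {z | z.1 ∈ W ∧ gnorm G z.1 z.2 < r} with hD
  have hD_open : IsOpen D :=
    (Metric.isOpen_ball.preimage continuous_fst).inter
      (isOpen_lt (continuous_gnorm hG) continuous_const)
  have hD_sub : D ⊆ e.source ∩ Inv := by
    rintro ⟨x, v⟩ ⟨hx, hv⟩
    refine hUV ⟨hδU hx, hρV ?_⟩
    have h1 := sqrt_lo_mul_norm_le hG x v
    have h2 : Real.sqrt lo * ‖v‖ < Real.sqrt lo * ρ := by
      calc Real.sqrt lo * ‖v‖ ≤ gnorm G x v := h1
        _ < ρ * Real.sqrt lo := hv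
        _ = Real.sqrt lo * ρ := mul_comm _ _
    have h3 : ‖v‖ < ρ := lt_of_mul_lt_mul_left h2 hlo.le
    simpa [Metric.mem_ball, dist_zero_right] using h3
  refine ⟨W, r, e.target ∩ e.symm ⁻¹' D, fun p => (e.symm p).2, ?_, Metric.mem_ball_self hδ⟩
  refine ⟨Metric.isOpen_ball, mul_pos hρ hlo, e.isOpen_inter_preimage_symm hD_open, ?_, ?_, ?_, ?_⟩
  · -- smoothness of the logarithm
    intro p hp
    obtain ⟨A, hAeq⟩ := (hD_sub hp.2).2
    have hder : HasFDerivAt e (A : (E × E) →L[ℝ] (E × E)) (e.symm p) := by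
      rw [hAeq]
      exact (hΨ.differentiable (by simp) _).hasFDerivAt
    have : ContDiffAt ℝ ∞ e.symm p := e.contDiffAt_symm hp.1 hder hΨ.contDiffAt
    exact (contDiffAt_snd.comp p this).contDiffWithinAt
  · intro x hx v hv
    have hz : (x, v) ∈ D := ⟨hx, hv⟩
    have hs : (x, v) ∈ e.source := (hD_sub hz).1
    refine ⟨e.map_source hs, ?_⟩
    change e.symm (e (x, v)) ∈ D
    rw [e.left_inv hs]; exact hz
  · intro x hx v hv
    have hz : (x, v) ∈ D := ⟨hx, hv⟩
    have hs : (x, v) ∈ e.source := (hD_sub hz).1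
    change (e.symm (e (x, v))).2 = v
    rw [e.left_inv hs]
  · intro p hp
    have hz : e.symm p ∈ D := hp.2
    have hright : psiMap G (e.symm p) = p := e.right_inv hp.1
    have h1 : (e.symm p).1 = p.1 := by
      have := congrArg Prod.fst hright
      exact this
    have h2 : expc G (e.symm p).1 (e.symm p).2 = p.2 := by
      have := congrArg Prod.snd hright
      exact this
    rw [h1] at h2
    refine ⟨h1 ▸ hz.1, ?_, h2⟩
    have := hz.2
    rwa [h1] at this

variable {W : Set E} {r : ℝ} {Ω : Set (E × E)} {L : E × E → E}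

/-- shrinking a normal neighbourhood. -/
theorem IsNormal.mono (hG : GMetric G lo hi) (h : IsNormal G W r Ω L) {W' : Set E} {r' : ℝ}
    (hW' : IsOpen W') (hWW : W' ⊆ W) (hr' : 0 < r') (hrr : r' ≤ r) :
    IsNormal G W' r' {p ∈ Ω | p.1 ∈ W' ∧ gnorm G p.1 (L p) < r'} L := by
  refine ⟨hW', hr', ?_, h.smooth.mono (fun p hp => hp.1), ?_, ?_, ?_⟩
  · have hc : ContinuousOn (fun p : E × E => (p.1, gnorm G p.1 (L p))) Ω := by
      refine continuousOn_fst.prodMk ?_
      exact (continuous_gnorm hG).comp_continuousOn (continuousOn_fst.prodMk h.smooth.continuousOn)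
    have := hc.isOpen_inter_preimage h.isOpen (hW'.prod (isOpen_Iio (a := r')))
    convert this using 1
    ext p
    exact Iff.rfl
  · intro x hx v hv
    have hv' : gnorm G x v < r := lt_of_lt_of_le hv hrr
    refine ⟨h.mem x (hWW hx) v hv', hx, ?_⟩
    simpa [h.log_exp x (hWW hx) v hv'] using hv
  · intro x hx v hv
    exact h.log_exp x (hWW hx) v (lt_of_lt_of_le hv hrr)
  · intro p hp
    exact ⟨hp.2.1, hp.2.2, (h.of_mem p hp.1).2.2⟩

theorem IsNormal.diag_mem (hG : GMetric G lo hi) (h : IsNormal G W r Ω L) {x : E} (hx : x ∈ W) :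
    (x, x) ∈ Ω := by
  have := h.mem x hx 0 (by rw [gnorm_zero]; exact h.r_pos)
  rwa [expc_zero hG] at this

theorem IsNormal.log_diag (hG : GMetric G lo hi) (h : IsNormal G W r Ω L) {x : E} (hx : x ∈ W) :
    L (x, x) = 0 := by
  have := h.log_exp x hx 0 (by rw [gnorm_zero]; exact h.r_pos)
  rwa [expc_zero hG] at this

theorem IsNormal.log_eq_zero (hG : GMetric G lo hi) (h : IsNormal G W r Ω L) {p : E × E}
    (hp : p ∈ Ω) : L p = 0 ↔ p.2 = p.1 := by
  obtain ⟨h1, -, h3⟩ := h.of_mem p hp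
  constructor
  · intro h0
    rw [h0, expc_zero hG] at h3
    exact h3.symm
  · intro h0
    have : p = (p.1, p.1) := Prod.ext rfl h0
    rw [this]
    exact h.log_diag hG h1

/-- there is a smaller neighbourhood any two points of which are joined inside `Ω`. -/
theorem IsNormal.exists_prod_subset (hG : GMetric G lo hi) (h : IsNormal G W r Ω L) {x₀ : E}
    (hx : x₀ ∈ W) : ∃ W' : Set E, IsOpen W' ∧ x₀ ∈ W' ∧ W' ⊆ W ∧ W' ×ˢ W' ⊆ Ω := by
  obtain ⟨U, V, hU, hV, hxU, hxV, hUV⟩ := isOpen_prod_iff.1 h.isOpen x₀ x₀ (h.diag_mem hG hx)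
  refine ⟨U ∩ V ∩ W, (hU.inter hV).inter h.isOpen_W, ⟨⟨hxU, hxV⟩, hx⟩, fun y hy => hy.2, ?_⟩
  rintro ⟨a, b⟩ ⟨ha, hb⟩
  exact hUV ⟨ha.1.1, hb.1.2⟩

/-- points on the radial geodesic stay in `Ω`. -/
theorem IsNormal.radial_mem (hG : GMetric G lo hi) (h : IsNormal G W r Ω L) {p : E × E}
    (hp : p ∈ Ω) {t : ℝ} (ht : |t| ≤ 1) :
    (p.1, expc G p.1 (t • L p)) ∈ Ω ∧ L (p.1, expc G p.1 (t • L p)) = t • L p := by
  obtain ⟨h1, h2, -⟩ := h.of_mem p hp
  have hlt : gnorm G p.1 (t • L p) < r := by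
    rw [gnorm_smul]
    calc |t| * gnorm G p.1 (L p) ≤ 1 * gnorm G p.1 (L p) :=
          mul_le_mul_of_nonneg_right ht (gnorm_nonneg _ _)
      _ = gnorm G p.1 (L p) := one_mul _
      _ < r := h2
  exact ⟨h.mem _ h1 _ hlt, h.log_exp _ h1 _ hlt⟩

/-- symmetry of the logarithm. -/
theorem IsNormal.log_swap (hG : GMetric G lo hi) (h : IsNormal G W r Ω L) {p : E × E}
    (hp : p ∈ Ω) (hp' : p.swap ∈ Ω) : L p.swap = -velc G p.1 (L p) := by
  obtain ⟨h1, h2, h3⟩ := h.of_mem p hp
  obtain ⟨h1', -, -⟩ := h.of_mem _ hp'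
  have hy : p.2 ∈ W := h1'
  have hn : gnorm G p.2 (-velc G p.1 (L p)) < r := by
    rw [gnorm_neg]
    have := gnorm_velc hG p.1 (L p)
    rw [h3] at this
    rw [this]; exact h2
  have hb : expc G p.2 (-velc G p.1 (L p)) = p.1 := by
    have := expc_neg_velc hG p.1 (L p)
    rwa [h3] at this
  have := h.log_exp p.2 hy _ hn
  rw [hb] at this
  exact this

/-- the local cost `|log_x y|^2/2`. -/
noncomputable def ccost (G : E → E →L[ℝ] E) (L : E × E → E) (p : E × E) : ℝ :=
  energy G (p.1, L p)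

theorem IsNormal.contDiffOn_ccost (hG : GMetric G lo hi) (h : IsNormal G W r Ω L) :
    ContDiffOn ℝ ∞ (ccost G L) Ω :=
  (contDiff_energy hG).comp_contDiffOn (contDiffOn_fst.prodMk h.smooth)

theorem IsNormal.ccost_swap (hG : GMetric G lo hi) (h : IsNormal G W r Ω L) {p : E × E}
    (hp : p ∈ Ω) (hp' : p.swap ∈ Ω) : ccost G L p.swap = ccost G L p := by
  obtain ⟨-, -, h3⟩ := h.of_mem p hp
  unfold ccost
  rw [energy_eq hG, energy_eq hG, h.log_swap hG hp hp']
  simp only [Prod.fst_swap]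
  rw [gnorm_neg]
  have := gnorm_velc hG p.1 (L p)
  rw [h3] at this
  rw [this]

/-- **differential of the local cost**: `d c (h,k) = ⟪G y V, k⟫ - ⟪G x v, h⟫`, where `v = log_x y`
and `V` is the velocity at `y` of the geodesic from `x` to `y`. -/
theorem IsNormal.hasFDerivAt_ccost (hG : GMetric G lo hi) (h : IsNormal G W r Ω L) {p : E × E}
    (hp : p ∈ Ω) :
    HasFDerivAt (ccost G L)
      ((innerSL ℝ (G p.2 (velc G p.1 (L p)))).comp (ContinuousLinearMap.snd ℝ E E) -
        (innerSL ℝ (G p.1 (L p))).comp (ContinuousLinearMap.fst ℝ E E)) p := by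
  obtain ⟨-, -, h3⟩ := h.of_mem p hp
  have hΩ : Ω ∈ 𝓝 p := h.isOpen.mem_nhds hp
  have hL : HasFDerivAt L (fderiv ℝ L p) p :=
    ((h.smooth.contDiffAt hΩ).differentiableAt (by simp)).hasFDerivAt
  set DL := fderiv ℝ L p with hDL
  -- the map `p' ↦ (p'.1, L p')`
  have hψ : HasFDerivAt (fun p' : E × E => (p'.1, L p'))
      ((ContinuousLinearMap.fst ℝ E E).prod DL) p := hasFDerivAt_fst.prodMk hL
  have hflow : HasFDerivAt (gflow G 1) (fderiv ℝ (gflow G 1) (p.1, L p)) (p.1, L p) :=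
    ((contDiff_gflow_time hG 1).differentiable (by simp) _).hasFDerivAt
  -- differentiate `expc G p'.1 (L p') = p'.2`
  have hid : HasFDerivAt (fun p' : E × E => (gflow G 1 (p'.1, L p')).1)
      ((ContinuousLinearMap.fst ℝ E E).comp
        ((fderiv ℝ (gflow G 1) (p.1, L p)).comp ((ContinuousLinearMap.fst ℝ E E).prod DL))) p :=
    (hasFDerivAt_fst (p := gflow G 1 (p.1, L p))).comp p (hflow.comp p hψ)
  have hid2 : HasFDerivAt (fun p' : E × E => (gflow G 1 (p'.1, L p')).1)
      (ContinuousLinearMap.snd ℝ E E) p := by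
    refine (hasFDerivAt_snd (p := p)).congr_of_eventuallyEq ?_
    filter_upwards [hΩ] with p' hp'
    exact (h.of_mem p' hp').2.2
  have hkey := hid.unique hid2
  have hE : HasFDerivAt (ccost G L)
      ((fderiv ℝ (energy G) (p.1, L p)).comp ((ContinuousLinearMap.fst ℝ E E).prod DL)) p :=
    (((contDiff_energy hG).differentiable (by simp) _).hasFDerivAt).comp p hψ
  convert hE using 1
  refine ContinuousLinearMap.ext fun q => ?_
  have hfv := first_variation hG 1 (p.1, L p) (q.1, DL q)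
  have hk : ((fderiv ℝ (gflow G 1) (p.1, L p)) (q.1, DL q)).1 = q.2 :=
    DFunLike.congr_fun hkey q
  have e1 : (gflow G 1 (p.1, L p)).1 = p.2 := h3
  have e2 : (gflow G 1 (p.1, L p)).2 = velc G p.1 (L p) := rfl
  rw [one_mul, hk, e1, e2] at hfv
  simpa using hfv

/-- the derivative of `log_x` at `x` is the identity; joint version. -/
theorem IsNormal.hasFDerivAt_log_diag (hG : GMetric G lo hi) (h : IsNormal G W r Ω L) {x : E}
    (hx : x ∈ W) :
    HasFDerivAt L (ContinuousLinearMap.snd ℝ E E - ContinuousLinearMap.fst ℝ E E) (x, x) := by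
  have hp : (x, x) ∈ Ω := h.diag_mem hG hx
  have hΩ : Ω ∈ 𝓝 (x, x) := h.isOpen.mem_nhds hp
  have hL : HasFDerivAt L (fderiv ℝ L (x, x)) (x, x) :=
    ((h.smooth.contDiffAt hΩ).differentiableAt (by simp)).hasFDerivAt
  set DL := fderiv ℝ L (x, x) with hDL
  have hψ : HasFDerivAt (fun p' : E × E => (p'.1, L p'))
      ((ContinuousLinearMap.fst ℝ E E).prod DL) (x, x) := hasFDerivAt_fst.prodMk hL
  have hexp : HasFDerivAt (fun z : E × E => expc G z.1 z.2)
      (ContinuousLinearMap.fst ℝ E E + ContinuousLinearMap.snd ℝ E E)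
      ((fun p' : E × E => (p'.1, L p')) (x, x)) := by
    simpa [h.log_diag hG hx] using hasFDerivAt_expc_zero hG x
  have hid := hexp.comp (x, x) hψ
  have hid2 : HasFDerivAt ((fun z : E × E => expc G z.1 z.2) ∘ (fun p' : E × E => (p'.1, L p')))
      (ContinuousLinearMap.snd ℝ E E) (x, x) := by
    refine (hasFDerivAt_snd (p := (x, x))).congr_of_eventuallyEq ?_
    filter_upwards [hΩ] with p' hp'
    exact (h.of_mem p' hp').2.2
  have hkey := hid.unique hid2
  convert hL using 1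
  refine ContinuousLinearMap.ext fun q => ?_
  have hk : q.1 + DL q = q.2 := DFunLike.congr_fun hkey q
  simp only [sub_apply, ContinuousLinearMap.coe_fst', ContinuousLinearMap.coe_snd']
  rw [← hk]; abel

end Claimed.Agent.R213.Chart
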