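import Claimed.Agent.R213.Chart.Normal

set_option autoImplicit false

/-!
# Row 213, LEVEL A5: radial geodesics minimise inside a normal neighbourhood
-/

namespace Claimed.Agent.R213.Chart

open Set Filter Topology MeasureTheory
open scoped ContDiff RealInnerProductSpace

variable {E : Type*} [NormedAddCommGroup E] [InnerProductSpace ℝ E] [CompleteSpace E]
  [FiniteDimensional ℝ E] {G : E → E →L[ℝ] E} {lo hi : ℝ}
  {W : Set E} {r : ℝ} {Ω : Set (E × E)} {L : E × E → E}

/-- the speed of a `C^1` path is continuous. -/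
theorem continuousOn_gnorm_derivWithin (hG : GMetric G lo hi) {η : ℝ → E} {a b : ℝ} (hab : a < b)
    (hη : ContDiffOn ℝ 1 η (Icc a b)) :
    ContinuousOn (fun t => gnorm G (η t) (derivWithin η (Icc a b) t)) (Icc a b) := by
  have h1 : ContinuousOn (derivWithin η (Icc a b)) (Icc a b) :=
    hη.continuousOn_derivWithin (uniqueDiffOn_Icc hab) le_rfl
  exact (continuous_gnorm hG).comp_continuousOn (hη.continuousOn.prodMk h1)

/-- derivative of the local cost along a path. -/
theorem IsNormal.hasDerivWithinAt_ccost (hG : GMetric G lo hi) (h : IsNormal G W r Ω L) {x : E}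
    {η : ℝ → E} {s : Set ℝ} {t : ℝ} {η' : E} (hη : HasDerivWithinAt η η' s t)
    (hmem : (x, η t) ∈ Ω) :
    HasDerivWithinAt (fun τ => ccost G L (x, η τ))
      ⟪G (η t) (velc G x (L (x, η t))), η'⟫ s t := by
  have h1 := h.hasFDerivAt_ccost hG hmem
  have h2 : HasDerivWithinAt (fun τ => ((x, η τ) : E × E)) ((0 : E), η') s t :=
    (hasDerivWithinAt_const t s x).prodMk hη
  have h3 := h1.comp_hasDerivWithinAt t h2
  simpa [Function.comp_def] using h3

/-- the derivative of the local cost along a path is at most `radius * speed`. -/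
theorem IsNormal.inner_velc_le (hG : GMetric G lo hi) (h : IsNormal G W r Ω L) {x y : E}
    (hmem : (x, y) ∈ Ω) (w : E) :
    ⟪G y (velc G x (L (x, y))), w⟫ ≤ gnorm G x (L (x, y)) * gnorm G y w := by
  have h1 := inner_G_le hG y (velc G x (L (x, y))) w
  have h2 : expc G x (L (x, y)) = y := (h.of_mem _ hmem).2.2
  have h3 := gnorm_velc hG x (L (x, y))
  rw [h2] at h3
  rwa [h3] at h1

/-- **Radial bound**: along a `C^1` path `η` which stays in the normal ball of `x`, the radial
function `|log_x η|` grows at most as fast as the length of `η`. -/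
theorem IsNormal.radial_le (hG : GMetric G lo hi) (h : IsNormal G W r Ω L) {x : E} {η : ℝ → E}
    {a b : ℝ} (hab : a ≤ b) (hη : ContDiffOn ℝ 1 η (Icc a b))
    (hmem : ∀ t ∈ Icc a b, (x, η t) ∈ Ω) :
    gnorm G x (L (x, η b)) - gnorm G x (L (x, η a)) ≤
      ∫ t in a..b, gnorm G (η t) (derivWithin η (Icc a b) t) := by
  obtain rfl | hlt := hab.eq_or_lt
  · simp
  set ρ : ℝ → ℝ := fun t => gnorm G x (L (x, η t)) with hρ
  set g : ℝ → ℝ := fun t => gnorm G (η t) (derivWithin η (Icc a b) t) with hg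
  have hρ0 : ∀ t, 0 ≤ ρ t := fun t => gnorm_nonneg _ _
  have hg0 : ∀ t, 0 ≤ g t := fun t => gnorm_nonneg _ _
  have hc : ∀ t, ccost G L (x, η t) = ρ t ^ 2 / 2 := fun t => energy_eq hG _
  have hgc : ContinuousOn g (Icc a b) := continuousOn_gnorm_derivWithin hG hlt hη
  have hgi : IntegrableOn g (Icc a b) := hgc.integrableOn_Icc
  have hdiff : ∀ t ∈ Icc a b, HasDerivWithinAt η (derivWithin η (Icc a b) t) (Icc a b) t :=
    fun t ht => ((hη.differentiableOn one_ne_zero) t ht).hasDerivWithinAt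
  have hcd : ∀ t ∈ Icc a b, HasDerivWithinAt (fun τ => ρ τ ^ 2)
      (2 * ⟪G (η t) (velc G x (L (x, η t))), derivWithin η (Icc a b) t⟫) (Icc a b) t := by
    intro t ht
    have h1 := (h.hasDerivWithinAt_ccost hG (hdiff t ht) (hmem t ht)).const_mul 2
    refine h1.congr_of_mem (fun τ _ => ?_) ht
    rw [hc τ]; ring
  refine le_of_forall_pos_le_add fun δ hδ => ?_
  -- the regularised radius
  set f : ℝ → ℝ := fun t => Real.sqrt (ρ t ^ 2 + δ ^ 2) with hf
  have hpos : ∀ t, 0 < ρ t ^ 2 + δ ^ 2 := fun t => by positivity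
  have hfd : ∀ t ∈ Icc a b, HasDerivWithinAt f
      (2 * ⟪G (η t) (velc G x (L (x, η t))), derivWithin η (Icc a b) t⟫ /
        (2 * Real.sqrt (ρ t ^ 2 + δ ^ 2))) (Icc a b) t := by
    intro t ht
    exact ((hcd t ht).add_const (δ ^ 2)).sqrt (hpos t).ne'
  have hle : ∀ t ∈ Icc a b,
      2 * ⟪G (η t) (velc G x (L (x, η t))), derivWithin η (Icc a b) t⟫ /
        (2 * Real.sqrt (ρ t ^ 2 + δ ^ 2)) ≤ g t := by
    intro t ht
    have hs : 0 < Real.sqrt (ρ t ^ 2 + δ ^ 2) := Real.sqrt_pos.2 (hpos t)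
    rw [div_le_iff₀ (by positivity)]
    have h1 := h.inner_velc_le hG (hmem t ht) (derivWithin η (Icc a b) t)
    have h2 : ρ t ≤ Real.sqrt (ρ t ^ 2 + δ ^ 2) :=
      Real.le_sqrt_of_sq_le (by nlinarith [sq_nonneg δ])
    have h3 : ρ t * g t ≤ Real.sqrt (ρ t ^ 2 + δ ^ 2) * g t :=
      mul_le_mul_of_nonneg_right h2 (hg0 t)
    have h1' : ⟪G (η t) (velc G x (L (x, η t))), derivWithin η (Icc a b) t⟫ ≤ ρ t * g t := h1
    nlinarith
  have hmain : f b - f a ≤ ∫ t in a..b, g t := by
    refine intervalIntegral.sub_le_integral_of_hasDeriv_right_of_le hab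
      (fun t ht => (hfd t ht).continuousWithinAt) (fun t ht => ?_) hgi
      (fun t ht => hle t (Ioo_subset_Icc_self ht))
    exact ((hfd t (Ioo_subset_Icc_self ht)).hasDerivAt (Icc_mem_nhds ht.1 ht.2)).hasDerivWithinAt
  have hb : ρ b ≤ f b := Real.le_sqrt_of_sq_le (by nlinarith [sq_nonneg δ])
  have ha : f a ≤ ρ a + δ := by
    rw [hf]
    apply Real.sqrt_le_iff.2
    refine ⟨by have := hρ0 a; linarith, ?_⟩
    nlinarith [hρ0 a, hδ.le, mul_nonneg (hρ0 a) hδ.le]
  linarith

/-- the same with a lower Lebesgue integral (the shape of Mathlib's `pathELength`). -/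
theorem IsNormal.radial_le_lintegral (hG : GMetric G lo hi) (h : IsNormal G W r Ω L) {x : E}
    {η : ℝ → E} {a b : ℝ} (hab : a ≤ b) (hη : ContDiffOn ℝ 1 η (Icc a b))
    (hmem : ∀ t ∈ Icc a b, (x, η t) ∈ Ω) :
    ENNReal.ofReal (gnorm G x (L (x, η b)) - gnorm G x (L (x, η a))) ≤
      ∫⁻ t in Icc a b, ENNReal.ofReal (gnorm G (η t) (derivWithin η (Icc a b) t)) := by
  obtain rfl | hlt := hab.eq_or_lt
  · simp
  have h1 := h.radial_le hG hab hη hmem
  have hgi : IntegrableOn (fun t => gnorm G (η t) (derivWithin η (Icc a b) t)) (Icc a b) :=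
    (continuousOn_gnorm_derivWithin hG hlt hη).integrableOn_Icc
  rw [intervalIntegral.integral_of_le hab, ← integral_Icc_eq_integral_Ioc] at h1
  refine (ENNReal.ofReal_le_ofReal h1).trans (le_of_eq ?_)
  exact ofReal_integral_eq_lintegral_ofReal hgi (Eventually.of_forall fun t => gnorm_nonneg _ _)

/-- the length of a geodesic arc. -/
theorem integral_gnorm_gflow (hG : GMetric G lo hi) (z : E × E) (a b : ℝ) :
    ∫ t in a..b, gnorm G (gflow G t z).1 (gflow G t z).2 = (b - a) * gnorm G z.1 z.2 := by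
  simp only [gnorm_gflow hG, intervalIntegral.integral_const, smul_eq_mul]

end Claimed.Agent.R213.Chart
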