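import Claimed.Agent.R213.Chart.Defs

set_option autoImplicit false

/-!
# Row 213, LEVEL A1: the geodesic spray of a `GMetric`
Smoothness, homogeneity, Euler-Lagrange form, conservation of energy.
-/

namespace Claimed.Agent.R213.Chart

open Set Filter Topology
open scoped ContDiff RealInnerProductSpace

set_option linter.unusedSectionVars false

variable {E : Type*} [NormedAddCommGroup E] [InnerProductSpace ℝ E] [CompleteSpace E]
  [FiniteDimensional ℝ E] {G : E → E →L[ℝ] E} {lo hi : ℝ}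

/-! ### the norm `gnorm` -/

theorem GMetric.inner_nonneg (hG : GMetric G lo hi) (x v : E) : 0 ≤ ⟪G x v, v⟫ :=
  le_trans (mul_nonneg hG.lo_pos.le (sq_nonneg _)) (hG.lower x v)

theorem gnorm_sq (hG : GMetric G lo hi) (x v : E) : gnorm G x v ^ 2 = ⟪G x v, v⟫ :=
  Real.sq_sqrt (hG.inner_nonneg x v)

theorem energy_eq (hG : GMetric G lo hi) (z : E × E) :
    energy G z = gnorm G z.1 z.2 ^ 2 / 2 := by
  rw [gnorm_sq hG, energy]; ring

theorem gnorm_nonneg (x v : E) : 0 ≤ gnorm G x v := Real.sqrt_nonneg _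

theorem gnorm_zero (x : E) : gnorm G x 0 = 0 := by
  simp [gnorm]

theorem gnorm_eq_zero (hG : GMetric G lo hi) {x v : E} : gnorm G x v = 0 ↔ v = 0 := by
  constructor
  · intro h
    have h1 : ⟪G x v, v⟫ = 0 := by rw [← gnorm_sq hG, h]; simp
    have h2 := hG.lower x v
    rw [h1] at h2
    have h3 : ‖v‖ ^ 2 ≤ 0 := by
      by_contra hc
      push Not at hc
      have := mul_pos hG.lo_pos hc
      linarith
    have h4 : ‖v‖ = 0 := by
      have := sq_nonneg ‖v‖
      exact pow_eq_zero_iff (two_ne_zero) |>.1 (le_antisymm h3 this)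
    exact norm_eq_zero.1 h4
  · rintro rfl; exact gnorm_zero x

theorem gnorm_smul (a : ℝ) (x v : E) : gnorm G x (a • v) = |a| * gnorm G x v := by
  have : ⟪G x (a • v), a • v⟫ = a ^ 2 * ⟪G x v, v⟫ := by
    simp only [map_smul, inner_smul_left, inner_smul_right, RCLike.conj_to_real]; ring
  rw [gnorm, this, Real.sqrt_mul (sq_nonneg a), Real.sqrt_sq_eq_abs, gnorm]

theorem gnorm_neg (x v : E) : gnorm G x (-v) = gnorm G x v := by
  simp [gnorm]

theorem sqrt_lo_mul_norm_le (hG : GMetric G lo hi) (x v : E) :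
    Real.sqrt lo * ‖v‖ ≤ gnorm G x v := by
  have : Real.sqrt lo * ‖v‖ = Real.sqrt (lo * ‖v‖ ^ 2) := by
    rw [Real.sqrt_mul hG.lo_pos.le, Real.sqrt_sq (norm_nonneg v)]
  rw [this]
  exact Real.sqrt_le_sqrt (hG.lower x v)

theorem GMetric.hi_nonneg (hG : GMetric G lo hi) [Nontrivial E] : 0 < hi := by
  obtain ⟨v, hv⟩ := exists_ne (0 : E)
  have h1 := hG.lower 0 v
  have h2 := hG.upper 0 v
  have h3 : 0 < ‖v‖ ^ 2 := by positivity
  have h4 : lo * ‖v‖ ^ 2 ≤ hi * ‖v‖ ^ 2 := h1.trans h2
  have h5 : lo ≤ hi := le_of_mul_le_mul_right h4 h3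
  exact hG.lo_pos.trans_le h5

theorem gnorm_le_sqrt_hi_mul_norm (hG : GMetric G lo hi) (x v : E) :
    gnorm G x v ≤ Real.sqrt hi * ‖v‖ := by
  rcases subsingleton_or_nontrivial E with hE | hE
  · have : v = 0 := Subsingleton.elim _ _
    subst this
    simp [gnorm_zero]
  · have : Real.sqrt hi * ‖v‖ = Real.sqrt (hi * ‖v‖ ^ 2) := by
      rw [Real.sqrt_mul hG.hi_nonneg.le, Real.sqrt_sq (norm_nonneg v)]
    rw [this]
    exact Real.sqrt_le_sqrt (hG.upper x v)

/-- expansion of the square. -/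
theorem inner_G_sub_smul (hG : GMetric G lo hi) (x v w : E) (c : ℝ) :
    ⟪G x (w - c • v), w - c • v⟫ = ⟪G x w, w⟫ - 2 * c * ⟪G x v, w⟫ + c ^ 2 * ⟪G x v, v⟫ := by
  have h1 : ⟪G x w, v⟫ = ⟪G x v, w⟫ := by rw [hG.symm x w v, real_inner_comm]
  simp only [map_sub, map_smul, inner_sub_left, inner_sub_right, inner_smul_left, inner_smul_right,
    RCLike.conj_to_real, h1]
  ring

/-- Cauchy-Schwarz for the metric `G`. -/
theorem inner_G_le (hG : GMetric G lo hi) (x v w : E) :
    ⟪G x v, w⟫ ≤ gnorm G x v * gnorm G x w := by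
  by_cases hv : v = 0
  · subst hv; simp [gnorm_zero]
  have hpos : 0 < ⟪G x v, v⟫ := by
    have h0 := hG.inner_nonneg x v
    rcases h0.lt_or_eq with h | h
    · exact h
    · exfalso
      apply hv
      rw [← gnorm_eq_zero hG (x := x), gnorm, ← h, Real.sqrt_zero]
  have key := hG.inner_nonneg x (w - (⟪G x v, w⟫ / ⟪G x v, v⟫) • v)
  rw [inner_G_sub_smul hG] at key
  have h2 : ⟪G x v, w⟫ ^ 2 ≤ ⟪G x v, v⟫ * ⟪G x w, w⟫ := by
    have : ⟪G x w, w⟫ - 2 * (⟪G x v, w⟫ / ⟪G x v, v⟫) * ⟪G x v, w⟫ +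
        (⟪G x v, w⟫ / ⟪G x v, v⟫) ^ 2 * ⟪G x v, v⟫ = ⟪G x w, w⟫ - ⟪G x v, w⟫ ^ 2 / ⟪G x v, v⟫ := by
      field_simp; ring
    rw [this] at key
    have h3 : ⟪G x v, w⟫ ^ 2 / ⟪G x v, v⟫ ≤ ⟪G x w, w⟫ := by linarith
    rw [div_le_iff₀ hpos] at h3
    linarith
  have h3 : ⟪G x v, w⟫ ^ 2 ≤ (gnorm G x v * gnorm G x w) ^ 2 := by
    rw [mul_pow, gnorm_sq hG, gnorm_sq hG]; exact h2
  exact le_trans (le_abs_self _)
    (abs_le_of_sq_le_sq h3 (mul_nonneg (gnorm_nonneg x v) (gnorm_nonneg x w)))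

/-- equality case of Cauchy-Schwarz. -/
theorem eq_smul_of_inner_G_eq (hG : GMetric G lo hi) {x v w : E} (hv : v ≠ 0)
    (h : ⟪G x v, w⟫ = gnorm G x v * gnorm G x w) :
    w = (gnorm G x w / gnorm G x v) • v := by
  have hv' : gnorm G x v ≠ 0 := fun h0 => hv ((gnorm_eq_zero hG).1 h0)
  have key := inner_G_sub_smul hG x v w (gnorm G x w / gnorm G x v)
  rw [h, ← gnorm_sq hG x w, ← gnorm_sq hG x v, ← gnorm_sq hG] at key
  have h0 : gnorm G x (w - (gnorm G x w / gnorm G x v) • v) ^ 2 = 0 := by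
    rw [key]; field_simp; ring
  have h1 : gnorm G x (w - (gnorm G x w / gnorm G x v) • v) = 0 :=
    pow_eq_zero_iff (two_ne_zero) |>.1 h0
  exact sub_eq_zero.1 ((gnorm_eq_zero hG).1 h1)

theorem continuous_gnorm (hG : GMetric G lo hi) :
    Continuous (fun z : E × E => gnorm G z.1 z.2) := by
  have h1 : Continuous (fun z : E × E => G z.1 z.2) :=
    (hG.smooth.continuous.comp continuous_fst).clm_apply continuous_snd
  exact Real.continuous_sqrt.comp (h1.inner continuous_snd)

/-! ### the spray -/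

/-- `G x` is invertible. -/
theorem GMetric.isInvertible (hG : GMetric G lo hi) (x : E) : (G x).IsInvertible := by
  have hinj : Function.Injective (G x : E →ₗ[ℝ] E) := by
    rw [injective_iff_map_eq_zero]
    intro v hv
    have hv' : G x v = 0 := hv
    rw [← gnorm_eq_zero hG (x := x), gnorm, hv', inner_zero_left, Real.sqrt_zero]
  refine ⟨(LinearEquiv.ofInjectiveEndo (G x : E →ₗ[ℝ] E) hinj).toContinuousLinearEquiv, ?_⟩
  ext v
  simp

theorem G_acc (hG : GMetric G lo hi) (x v : E) : G x (acc G x v) = force G x v :=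
  (((hG.isInvertible x).inverse_apply_eq (x := acc G x v) (y := force G x v)).1 rfl).symm

theorem gradE_smul (a : ℝ) (x v : E) : gradE G x (a • v) = a ^ 2 • gradE G x v := by
  refine ext_inner_right ℝ fun e => ?_
  rw [inner_gradE, inner_smul_left (gradE G x v), inner_gradE]
  simp only [map_smul, inner_smul_left, inner_smul_right, RCLike.conj_to_real]
  ring

theorem force_smul (a : ℝ) (x v : E) : force G x (a • v) = a ^ 2 • force G x v := by
  simp only [force, gradE_smul, map_smul, ContinuousLinearMap.smul_apply, smul_sub, smul_smul]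
  congr 1
  · congr 1; ring
  · congr 1; ring

theorem acc_smul (a : ℝ) (x v : E) : acc G x (a • v) = a ^ 2 • acc G x v := by
  simp only [acc, force_smul, map_smul]

theorem contDiff_fderiv_G (hG : GMetric G lo hi) : ContDiff ℝ ∞ (fderiv ℝ G) :=
  hG.smooth.fderiv_right (by simp)

theorem gradE_eq_sum (x v : E) :
    gradE G x v = ∑ i, ⟪v, (fderiv ℝ G x (stdOrthonormalBasis ℝ E i)) v⟫ •
      stdOrthonormalBasis ℝ E i := by
  rw [← (stdOrthonormalBasis ℝ E).sum_repr' (gradE G x v)]
  refine Finset.sum_congr rfl fun i _ => ?_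
  rw [real_inner_comm, inner_gradE]

theorem contDiff_gradE (hG : GMetric G lo hi) :
    ContDiff ℝ ∞ (fun z : E × E => gradE G z.1 z.2) := by
  simp only [gradE_eq_sum]
  refine ContDiff.sum fun i _ => ?_
  refine ContDiff.smul ?_ contDiff_const
  refine contDiff_snd.inner ℝ ?_
  exact (((contDiff_fderiv_G hG).comp contDiff_fst).clm_apply contDiff_const).clm_apply contDiff_snd

theorem contDiff_force (hG : GMetric G lo hi) :
    ContDiff ℝ ∞ (fun z : E × E => force G z.1 z.2) := by
  unfold force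
  refine ((contDiff_gradE hG).const_smul _).sub ?_
  exact (((contDiff_fderiv_G hG).comp contDiff_fst).clm_apply contDiff_snd).clm_apply contDiff_snd

theorem contDiff_acc (hG : GMetric G lo hi) : ContDiff ℝ ∞ (fun z : E × E => acc G z.1 z.2) := by
  unfold acc
  refine ContDiff.clm_apply ?_ (contDiff_force hG)
  rw [contDiff_iff_contDiffAt]
  intro z
  exact ((hG.isInvertible z.1).contDiffAt_map_inverse).comp z
    ((hG.smooth.comp contDiff_fst).contDiffAt)

theorem contDiff_geoField (hG : GMetric G lo hi) : ContDiff ℝ ∞ (geoField G) :=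
  contDiff_snd.prodMk (contDiff_acc hG)

theorem contDiff_energy (hG : GMetric G lo hi) : ContDiff ℝ ∞ (energy G) := by
  unfold energy
  refine contDiff_const.mul ?_
  exact (((hG.smooth.comp contDiff_fst).clm_apply contDiff_snd)).inner ℝ contDiff_snd

theorem GMetric.hasFDerivAt (hG : GMetric G lo hi) (x : E) : HasFDerivAt G (fderiv ℝ G x) x :=
  (hG.smooth.differentiable (by simp) x).hasFDerivAt

/-- derivative of the energy. -/
theorem hasFDerivAt_energy (hG : GMetric G lo hi) (z : E × E) :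
    HasFDerivAt (energy G)
      (((1 / 2 : ℝ) • dForm G z.1 z.2 z.2).comp (ContinuousLinearMap.fst ℝ E E) +
        (innerSL ℝ (G z.1 z.2)).comp (ContinuousLinearMap.snd ℝ E E)) z := by
  have h1 : HasFDerivAt (fun z : E × E => G z.1) ((fderiv ℝ G z.1).comp
      (ContinuousLinearMap.fst ℝ E E)) z := (hG.hasFDerivAt z.1).comp z hasFDerivAt_fst
  have h2 := h1.clm_apply (hasFDerivAt_snd (𝕜 := ℝ) (p := z))
  have h3 := (h2.inner ℝ (hasFDerivAt_snd (𝕜 := ℝ) (p := z))).const_mul (1 / 2 : ℝ)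
  refine h3.congr_fderiv ?_
  ext q
  · simp [real_inner_comm]
  · simp only [ContinuousLinearMap.coe_comp', Function.comp_apply, ContinuousLinearMap.inr_apply,
      ContinuousLinearMap.add_apply, ContinuousLinearMap.prod_apply,
      ContinuousLinearMap.coe_fst', ContinuousLinearMap.coe_snd', map_zero,
      fderivInnerCLM_apply, ContinuousLinearMap.flip_apply, ContinuousLinearMap.zero_apply,
      add_zero, zero_add, smul_eq_mul, innerSL_apply_apply, ContinuousLinearMap.coe_smul',
      Pi.smul_apply, mul_zero]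
    rw [hG.symm z.1 q z.2, real_inner_comm q]
    ring

theorem fderiv_energy_apply (hG : GMetric G lo hi) (z q : E × E) :
    fderiv ℝ (energy G) z q =
      (1 / 2 : ℝ) * ⟪z.2, (fderiv ℝ G z.1 q.1) z.2⟫ + ⟪G z.1 z.2, q.2⟫ := by
  rw [(hasFDerivAt_energy hG z).fderiv]
  simp

/-- the energy is a first integral of the spray. -/
theorem fderiv_energy_geoField (hG : GMetric G lo hi) (z : E × E) :
    fderiv ℝ (energy G) z (geoField G z) = 0 := by
  rw [fderiv_energy_apply hG]
  simp only [geoField]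
  rw [hG.symm, G_acc hG, force, inner_sub_right, inner_smul_right,
    real_inner_comm (gradE G z.1 z.2), inner_gradE]
  ring

/-- **Euler-Lagrange form** of the geodesic equation: `d/dt (G x v) = (1/2) grad_x ⟪G x v, v⟫`. -/
theorem hasDerivAt_momentum (hG : GMetric G lo hi) {z : ℝ → E × E} {t : ℝ}
    (hz : HasDerivAt z (geoField G (z t)) t) :
    HasDerivAt (fun s => G (z s).1 (z s).2) ((1 / 2 : ℝ) • gradE G (z t).1 (z t).2) t := by
  have h1 : HasDerivAt (fun s => G (z s).1) (fderiv ℝ G (z t).1 (z t).2) t :=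
    (hG.hasFDerivAt (z t).1).comp_hasDerivAt t hz.fst
  have h2 := h1.clm_apply hz.snd
  convert h2 using 1
  simp only [geoField]
  rw [G_acc hG, force]
  abel

/-- conservation of energy along integral curves on an interval. -/
theorem IsGeoOn.energy_eq (hG : GMetric G lo hi) {z : ℝ → E × E} {a b : ℝ}
    (hz : IsGeoOn G z (Ioo a b)) {s t : ℝ} (hs : s ∈ Ioo a b) (ht : t ∈ Ioo a b) :
    energy G (z s) = energy G (z t) := by
  have hd : ∀ u ∈ Ioo a b, HasDerivAt (fun u => energy G (z u)) 0 u := by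
    intro u hu
    have := (hasFDerivAt_energy hG (z u)).comp_hasDerivAt u (hz u hu)
    rw [← (hasFDerivAt_energy hG (z u)).fderiv, fderiv_energy_geoField hG] at this
    exact this
  exact isOpen_Ioo.is_const_of_deriv_eq_zero isPreconnected_Ioo
    (fun u hu => (hd u hu).differentiableAt.differentiableWithinAt)
    (fun u hu => (hd u hu).deriv) hs ht

end Claimed.Agent.R213.Chart
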